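import Vale.Agent.P366.H208.CF.DivV
import Vale.Agent.P366.H208.CL.KAlg
import Vale.Agent.P366.CF.Base

/-! Foliated data: the divergence of the part of the flux field with `K`. -/

open MeasureTheory Metric Filter Topology Set
open scoped ContDiff ENNReal

noncomputable section
namespace Vale.Agent.P366.CF
open Vale.Agent.P366.Stmt Vale.Agent.P366.T2 Vale.Agent.P366.GC
open Vale.Agent.P366.H896 (CR pd_comm pd_congrU)
open Vale.Agent.P366.CLam (ns1 ns2)

variable {n : ℕ} {h W ψ : E n → ℝ} {g : Stmt.Field n} {nu : Fin n → E n → ℝ} {O : Set (E n)}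
  {D : Stmt.Exterior n} {y z : E n}

lemma nat_le_inf (k : ℕ) : ((k : ℕ) : WithTop ℕ∞) ≤ ((⊤ : ℕ∞) : WithTop ℕ∞) :=
  WithTop.coe_le_coe.2 (le_top : (k : ℕ∞) ≤ ⊤)

/-- the local structure of the metric at interior points -/
theorem ln_of (hL : IsFol h nu W D) : Ln D.g nu W {y | 0 < D.F y} where
  M := {
    op := isOpen_lt continuous_const D.dom.1.continuous
    sm := fun a b x _ => ((D.smooth a b).1.contDiffAt).of_le (nat_le_inf _)
    symm := fun x _ a b => (D.symm x a b).1
    det := fun x hx => (D.pos x (le_of_lt hx)).det_pos.ne' }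
  sN := fun i x hx => (hL.smN x (le_of_lt hx) i).of_le (nat_le_inf _)
  sW := fun x hx => (hL.smW x (le_of_lt hx)).of_le (nat_le_inf _)
  un := fun z hz => by
    rw [← hL.unit z (le_of_lt hz)]
    exact Finset.sum_congr rfl fun i _ => by ring
  fr := fun z hz => hL.frob z (le_of_lt hz)
  pos := fun z hz => one_W_pos hL (le_of_lt hz)
  met := fun z hz => hL.met z (le_of_lt hz)

namespace Ln

/-- the divergence of `∂_ν ν - (div ν) ν` -/
theorem div_G (hL : Ln g nu W O) (hz : z ∈ O) :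
    ∑ i, Stmt.pd i (fun y => cur nu i y - mcl nu y * nu i y) z =
      ∑ i, ∑ j, sff nu i j z * sff nu i j z - mcl nu z ^ 2 := by
  have hm : ∀ i, HP i (mcl nu) (∑ j, Stmt.pd i (Stmt.pd j (nu j)) z) z := fun i =>
    HP.sum _ fun j _ => hL.hN1 hz i j j
  have hc : ∀ i, HP i (cur nu i) (∑ j, (Stmt.pd i (nu j) z * Stmt.pd j (nu i) z +
      nu j z * Stmt.pd i (Stmt.pd j (nu i)) z)) z := fun i =>
    HP.sum _ fun j _ => (hL.hN hz i j).mul (hL.hN1 hz i j i)
  have h1 : ∀ i, Stmt.pd i (fun y => cur nu i y - mcl nu y * nu i y) z =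
      (∑ j, (Stmt.pd i (nu j) z * Stmt.pd j (nu i) z +
      nu j z * Stmt.pd i (Stmt.pd j (nu i)) z)) -
      ((∑ j, Stmt.pd i (Stmt.pd j (nu j)) z) * nu i z + mcl nu z * Stmt.pd i (nu i) z) :=
    fun i => ((hc i).sub ((hm i).mul (hL.hN hz i i))).pd
  simp only [h1, Finset.sum_sub_distrib, Finset.sum_add_distrib, ← Finset.mul_sum]
  have h2 : ∑ i, ∑ j, nu j z * Stmt.pd i (Stmt.pd j (nu i)) z =
      ∑ i, (∑ j, Stmt.pd i (Stmt.pd j (nu j)) z) * nu i z := by
    rw [Finset.sum_comm]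
    refine Finset.sum_congr rfl fun j _ => ?_
    rw [Finset.sum_mul]
    refine Finset.sum_congr rfl fun i _ => ?_
    rw [pd_comm hL.op ((hL.sN i).le (by norm_num)) hz i j]
    ring
  have h3 : ∑ i, ∑ j, Stmt.pd i (nu j) z * Stmt.pd j (nu i) z =
      ∑ i, ∑ j, sff nu i j z * sff nu i j z := by
    have hE : ∑ i, nu i z * cur nu i z = 0 := by
      rw [← hL.En hz]
      exact Finset.sum_congr rfl fun l _ => mul_comm _ _
    have e1 : ∀ i j, Stmt.pd i (nu j) z * Stmt.pd j (nu i) z =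
        sff nu i j z * sff nu i j z + cur nu i z * (sff nu i j z * nu j z) +
        cur nu j z * (sff nu j i z * nu i z) +
        (nu i z * cur nu i z) * (nu j z * cur nu j z) := by
      intro i j
      rw [B_eq i j, B_eq j i, hL.fr z hz j i]
      ring
    simp only [e1, Finset.sum_add_distrib, ← Finset.mul_sum, hL.Az hz, hE]
    rw [Finset.sum_comm (f := fun i j => cur nu j z * (sff nu j i z * nu i z))]
    simp only [← Finset.mul_sum, hL.Az hz]
    simp
  have h4 : ∑ i, Stmt.pd i (nu i) z = mcl nu z := rfl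
  rw [h2, h3, h4]
  ring

end Ln

/-- the part of the energy density with `K` -/
theorem mu_K (hL : IsFol h nu W D) (hy : 0 < D.F y) :
    Stmt.mu D.g D.K y - Stmt.scal D.g y / 2 =
      trL nu D.K y ^ 2 / 2 + 1 / (1 + W y) * nn nu D.K y * trL nu D.K y -
      kap nu D.K y * (∑ i, ∑ j, D.K y i j * sff nu i j y) +
      kap nu D.K y ^ 2 / 2 * (∑ i, ∑ j, sff nu i j y * sff nu i j y) -
      (∑ i, ∑ j, sig nu D.K i j y ^ 2) / 2 - ∑ i, alf nu W D.K i y ^ 2 := by
  have hLf := ln_of hL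
  have hyO : y ∈ {y | 0 < D.F y} := hy
  have hp := hLf.pos y hyO
  have hK : ∀ i j, D.K y i j = D.K y j i := fun i j => (D.symm y i j).2
  have hc : ∀ i, ∑ j, D.K y i j * nu j y = col nu D.K i y := fun i => rfl
  have hν : ∑ i, col nu D.K i y * nu i y = nn nu D.K y := rfl
  have hu := hLf.un y hyO
  have hb := hLf.Az hyO
  have hb' : ∀ l, ∑ i, sff nu i l y * nu i y = 0 := fun l => by
    rw [← hb l]
    exact Finset.sum_congr rfl fun i _ => by rw [hLf.fr y hyO i l]
  have h1 : Stmt.normSq D.g D.K y = ∑ i, ∑ j, D.K y i j ^ 2 -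
      2 * (1 - 1 / (1 + W y)) * ∑ i, col nu D.K i y ^ 2 +
      (1 - 1 / (1 + W y)) ^ 2 * nn nu D.K y ^ 2 := by
    unfold Stmt.normSq
    simp only [hLf.up_eq hyO]
    exact ns1 hK hc hν
  have h2 : ∑ i, ∑ j, sig nu D.K i j y ^ 2 = _ :=
    ns2 (κ := kap nu D.K y) (b := fun i j => sff nu i j y) hu hb hb' hK hc hν
  have h3 : ∑ i, alf nu W D.K i y ^ 2 = 1 / (1 + W y) * (∑ i, col nu D.K i y ^ 2 -
      nn nu D.K y ^ 2) := by
    have g1 : ∀ i, alf nu W D.K i y ^ 2 = 1 / (1 + W y) * (col nu D.K i y ^ 2 -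
        2 * nn nu D.K y * (col nu D.K i y * nu i y) +
        nn nu D.K y ^ 2 * (nu i y * nu i y)) := by
      intro i
      unfold alf
      rw [div_pow, Real.sq_sqrt hp.le]
      ring
    simp only [g1]
    rw [← Finset.mul_sum, Finset.sum_add_distrib, Finset.sum_sub_distrib, ← Finset.mul_sum,
      ← Finset.mul_sum, hν, hu]
    ring
  have h4 := hLf.tr_eq' hyO D.K
  have h5 : Stmt.mu D.g D.K y - Stmt.scal D.g y / 2 =
      (Stmt.tr D.g D.K y ^ 2 - Stmt.normSq D.g D.K y) / 2 := by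
    unfold Stmt.mu
    ring
  rw [h5, h4, h1, h2, h3]
  ring

/-- **The divergence of the part of the flux field with `K`.** -/
theorem div_XK (hL : IsFol h nu W D) (hy : 0 < D.F y) :
    ∑ i, Stmt.pd i (fun y => kap nu D.K y ^ 2 / 2 * (mcl nu y * nu i y + cur nu i y) -
      rat nu W D.K y * alf nu W D.K i y) y =
    Stmt.mu D.g D.K y - Stmt.scal D.g y / 2 -
      rat nu W D.K y * (∑ i, Stmt.mom D.g D.K i y * nu i y) / √(1 + W y) +
      (∑ i, ∑ j, sig nu D.K i j y ^ 2) / 2 + ∑ i, alf nu W D.K i y ^ 2 +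
      2 * rat nu W D.K y * (∑ i, alf nu W D.K i y * acc nu W i y) -
      ∑ i, alf nu W D.K i y * grd nu (rat nu W D.K) i y +
      kap nu D.K y * (∑ i, cur nu i y * grd nu (kap nu D.K) i y) -
      rat nu W D.K y * ∑ i, cur nu i y * alf nu W D.K i y := by
  have hLf := ln_of hL
  have hyO : y ∈ {y | 0 < D.F y} := hy
  have hp := hLf.pos y hyO
  have hs := Real.sqrt_pos.2 hp
  have hss := Real.mul_self_sqrt hp.le
  have hl := hL.mcp y hy.le
  have cN := hL.smN y hy.le
  have cW := hL.smW y hy.le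
  have hO : ∀ᶠ z in 𝓝 y, 0 < D.F z := hLf.op.mem_nhds hyO
  have ck : ContDiffAt ℝ ∞ (kap nu D.K) y := kap_cd cN hl.ne'
  have cM : ContDiffAt ℝ ∞ (mcl nu) y := mcl_cdB cN
  have hrat : CR 1 {y | 0 < D.F y} (rat nu W D.K) := fun z hz =>
    (rat_cd (hL.smN z (le_of_lt hz)) (hL.smW z (le_of_lt hz)) (hLf.pos z hz).ne'
      (hL.mcp z (le_of_lt hz)).ne').of_le (nat_le_inf 1)
  have hψ : CR 1 {y | 0 < D.F y} fun y => -rat nu W D.K y := fun z hz => (hrat z hz).neg
  have h1 := hLf.div_V (K := D.K) (ψ := fun y => -rat nu W D.K y)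
    (fun i j x _ => ((D.smooth i j).2.contDiffAt).of_le (nat_le_inf 1))
    (fun x _ i j => (D.symm x i j).2) hψ hyO
  have h2 := hLf.div_G hyO
  have h3 := mu_K hL hy
  -- the two parts of the field
  have ca : ∀ i, ContDiffAt ℝ ∞ (alf nu W D.K i) y := fun i => alf_cd cN cW hp i
  have cr : ContDiffAt ℝ ∞ (rat nu W D.K) y := rat_cd cN cW hp.ne' hl.ne'
  have cV : ∀ i, ContDiffAt ℝ ∞ (fun y => -rat nu W D.K y / √(1 + W y) * (col nu D.K i y -
      nn nu D.K y * nu i y - trL nu D.K y * nu i y)) y := fun i =>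
    (cr.neg.div ((contDiffAt_const.add cW).sqrt hp.ne') hs.ne').mul
      (((col_cd cN i).sub ((nn_cd cN).mul (cN i))).sub ((trL_cd cN).mul (cN i)))
  have hfield : ∀ i, (fun y => kap nu D.K y ^ 2 / 2 * (mcl nu y * nu i y + cur nu i y) -
      rat nu W D.K y * alf nu W D.K i y) =ᶠ[𝓝 y] fun y =>
      -rat nu W D.K y / √(1 + W y) * (col nu D.K i y -
      nn nu D.K y * nu i y - trL nu D.K y * nu i y) +
      kap nu D.K y * kap nu D.K y * (1 / 2) * (cur nu i y - mcl nu y * nu i y) := by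
    intro i
    filter_upwards [hO] with z hz
    have z1 : trL nu D.K z = kap nu D.K z * mcl nu z := by
      have := (hL.mcp z (le_of_lt hz)).ne'
      unfold kap
      field_simp
    have z2 : 0 < √(1 + W z) := Real.sqrt_pos.2 (hLf.pos z hz)
    rw [z1]
    unfold rat alf
    field_simp
    ring
  have hk : ∀ i, HP i (kap nu D.K) (Stmt.pd i (kap nu D.K) y) y := fun i =>
    HP.of_diff (ck.differentiableAt (by simp))
  have hG : ∀ i, HP i (fun y => cur nu i y - mcl nu y * nu i y)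
      (Stmt.pd i (fun y => cur nu i y - mcl nu y * nu i y) y) y := fun i =>
    HP.of_diff (((cur_cdB cN i).sub (cM.mul (cN i))).differentiableAt (by simp))
  have hd : ∀ i, Stmt.pd i (fun y => kap nu D.K y ^ 2 / 2 * (mcl nu y * nu i y + cur nu i y) -
      rat nu W D.K y * alf nu W D.K i y) y =
      Stmt.pd i (fun y => -rat nu W D.K y / √(1 + W y) * (col nu D.K i y -
      nn nu D.K y * nu i y - trL nu D.K y * nu i y)) y +
      (kap nu D.K y * (cur nu i y * Stmt.pd i (kap nu D.K) y) -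
        kap nu D.K y * mcl nu y * (Stmt.pd i (kap nu D.K) y * nu i y)) +
      kap nu D.K y ^ 2 / 2 * Stmt.pd i (fun y => cur nu i y - mcl nu y * nu i y) y := by
    intro i
    have a1 : HP i (fun y => -rat nu W D.K y / √(1 + W y) * (col nu D.K i y -
      nn nu D.K y * nu i y - trL nu D.K y * nu i y)) _ y :=
      HP.of_diff ((cV i).differentiableAt (by simp))
    have a2 := (a1.add ((((hk i).mul (hk i)).mul (HP.const i (1 / 2) y)).mul (hG i))).congr
      (hfield i)
    rw [a2.pd]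
    ring
  simp only [hd, Finset.sum_add_distrib, Finset.sum_sub_distrib, ← Finset.mul_sum]
  rw [h1, h2]
  -- the contractions
  have hu : ∑ i, nu i y * nu i y = 1 := hLf.un y hyO
  have hE : ∑ i, cur nu i y * nu i y = 0 := hLf.En hyO
  have hA : ∑ i, alf nu W D.K i y * nu i y = 0 := by
    have e : ∀ i, alf nu W D.K i y * nu i y = (1 / √(1 + W y)) * (col nu D.K i y * nu i y) -
        (1 / √(1 + W y)) * nn nu D.K y * (nu i y * nu i y) := fun i => by unfold alf; ring
    simp only [e, Finset.sum_sub_distrib, ← Finset.mul_sum, hu]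
    have : ∑ i, col nu D.K i y * nu i y = nn nu D.K y := rfl
    rw [this]
    ring
  have hcol : ∀ i, col nu D.K i y = √(1 + W y) * alf nu W D.K i y + nn nu D.K y * nu i y := by
    intro i
    unfold alf
    field_simp
    ring
  have hgA : ∀ φ : E n → ℝ, ∑ i, Stmt.pd i φ y * col nu D.K i y -
      (∑ i, Stmt.pd i φ y * nu i y) * nn nu D.K y =
      √(1 + W y) * ∑ i, alf nu W D.K i y * grd nu φ i y := by
    intro φ
    have e1 : ∀ i, Stmt.pd i φ y * col nu D.K i y = √(1 + W y) * (alf nu W D.K i y *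
        Stmt.pd i φ y) + nn nu D.K y * (Stmt.pd i φ y * nu i y) := fun i => by
      rw [hcol i]; ring
    have e2 : ∀ i, alf nu W D.K i y * grd nu φ i y = alf nu W D.K i y * Stmt.pd i φ y -
        (∑ j, Stmt.pd j φ y * nu j y) * (alf nu W D.K i y * nu i y) := fun i => by
      unfold grd; ring
    simp only [e1, e2, Finset.sum_add_distrib, Finset.sum_sub_distrib, ← Finset.mul_sum, hA]
    ring
  have hgE : ∑ i, cur nu i y * Stmt.pd i (kap nu D.K) y =
      ∑ i, cur nu i y * grd nu (kap nu D.K) i y := by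
    have e2 : ∀ i, cur nu i y * grd nu (kap nu D.K) i y = cur nu i y * Stmt.pd i (kap nu D.K) y -
        (∑ j, Stmt.pd j (kap nu D.K) y * nu j y) * (cur nu i y * nu i y) := fun i => by
      unfold grd; ring
    simp only [e2, Finset.sum_sub_distrib, ← Finset.mul_sum, hE]
    ring
  have hcE : ∑ i, col nu D.K i y * cur nu i y =
      √(1 + W y) * ∑ i, cur nu i y * alf nu W D.K i y := by
    have e : ∀ i, col nu D.K i y * cur nu i y = √(1 + W y) * (cur nu i y * alf nu W D.K i y) +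
        nn nu D.K y * (cur nu i y * nu i y) := fun i => by rw [hcol i]; ring
    simp only [e, Finset.sum_add_distrib, ← Finset.mul_sum, hE]
    ring
  have hW2 : ∑ i, alf nu W D.K i y * grd nu W i y =
      2 * (1 + W y) * ∑ i, alf nu W D.K i y * acc nu W i y := by
    rw [Finset.mul_sum]
    refine Finset.sum_congr rfl fun i _ => ?_
    unfold acc
    field_simp
  have hψd : ∀ i, Stmt.pd i (fun y => -rat nu W D.K y) y = -Stmt.pd i (rat nu W D.K) y := fun i =>
    (HP.of_diff (cr.differentiableAt (by simp)) : HP i (rat nu W D.K) _ y).neg.pd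
  have hrd : ∀ i, Stmt.pd i (rat nu W D.K) y = √(1 + W y) * Stmt.pd i (kap nu D.K) y +
      kap nu D.K y * Stmt.pd i W y / (2 * √(1 + W y)) := by
    intro i
    have a1 : HP i (rat nu W D.K) _ y := (hk i).mul (hLf.vol hyO i)
    rw [a1.pd, hLf.chr_tr hyO i]
    have : √(1 + W y) * (Stmt.pd i W y / (2 * (1 + W y))) =
        Stmt.pd i W y / (2 * √(1 + W y)) := by
      rw [mul_div_assoc', div_eq_div_iff (by positivity) (by positivity)]
      linear_combination (2 * Stmt.pd i W y) * hss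
    rw [this]
    ring
  have hrν : ∑ i, Stmt.pd i (rat nu W D.K) y * nu i y =
      √(1 + W y) * (∑ i, Stmt.pd i (kap nu D.K) y * nu i y) +
      kap nu D.K y / (2 * √(1 + W y)) * ∑ i, Stmt.pd i W y * nu i y := by
    rw [Finset.mul_sum, Finset.mul_sum, ← Finset.sum_add_distrib]
    exact Finset.sum_congr rfl fun i _ => by rw [hrd]; ring
  have e1 : ∑ i, -Stmt.pd i (rat nu W D.K) y * col nu D.K i y -
      (∑ i, -Stmt.pd i (rat nu W D.K) y * nu i y) * nn nu D.K y =
      -(√(1 + W y) * ∑ i, alf nu W D.K i y * grd nu (rat nu W D.K) i y) := by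
    rw [← hgA (rat nu W D.K)]
    simp only [neg_mul, Finset.sum_neg_distrib]
    ring
  have e2 : ∑ i, -Stmt.pd i (rat nu W D.K) y * nu i y =
      -(√(1 + W y) * (∑ i, Stmt.pd i (kap nu D.K) y * nu i y) +
      kap nu D.K y / (2 * √(1 + W y)) * ∑ i, Stmt.pd i W y * nu i y) := by
    rw [← hrν]
    simp only [neg_mul, Finset.sum_neg_distrib]
  simp only [hψd]
  rw [e1, e2, hgA W, hW2, hcE, hgE, h3]
  have e3 : trL nu D.K y = kap nu D.K y * mcl nu y := by
    unfold kap
    field_simp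
  rw [e3]
  have e4 : rat nu W D.K y = kap nu D.K y * √(1 + W y) := rfl
  rw [e4]
  generalize (∑ i, alf nu W D.K i y * grd nu (rat nu W D.K) i y) = Aτ
  generalize (∑ i, alf nu W D.K i y * acc nu W i y) = Aa
  generalize (∑ i, cur nu i y * alf nu W D.K i y) = EA
  generalize (∑ i, cur nu i y * grd nu (kap nu D.K) i y) = Eκ
  generalize (∑ i, Stmt.pd i (kap nu D.K) y * nu i y) = κ'
  generalize (∑ i, Stmt.pd i W y * nu i y) = W'
  generalize (∑ i, Stmt.mom D.g D.K i y * nu i y) = J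
  generalize (∑ i, ∑ j, D.K y i j * sff nu i j y) = s1
  generalize (∑ i, ∑ j, sff nu i j y * sff nu i j y) = b2
  generalize (∑ i, ∑ j, sig nu D.K i j y ^ 2) = sg2
  generalize (∑ i, alf nu W D.K i y ^ 2) = al2
  generalize nn nu D.K y = ν at *
  generalize kap nu D.K y = κ at *
  generalize mcl nu y = H at *
  clear hfield hd hG hk hcol hgA hrd hψd e1 e2 e3 e4 h1 h2 h3 cV ca hrν hcE hW2 hrat hψ cr
  generalize √(1 + W y) = S at *
  rw [← hss]
  have hS : S ≠ 0 := hs.ne'
  field_simp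
  ring

end Vale.Agent.P366.CF
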