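import Vale.Agent.P366.H208.CF.Loc
import Vale.Agent.P366.H896.G.Div

/-! The divergence of `√h π(ψ ν)` for the metric `h = δ + W ν ⊗ ν`, in flat letters. -/

open MeasureTheory Metric Filter Topology Set
open scoped ContDiff

noncomputable section
namespace Vale.Agent.P366.CF
open Vale.Agent.P366.Stmt Vale.Agent.P366.T2 Vale.Agent.P366.GC
open Vale.Agent.P366.H896 (CR pd_comm pd_congrU)
open Vale.Agent.P366.SH (kb div_cov cov_contr dot2 cr_tr cr_momT)
open Vale.Agent.P366.CL (cA cP c1 c2 key cP_right div_gen)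

variable {n : ℕ} {h K : Stmt.Field n} {nu : Fin n → E n → ℝ} {W ψ : E n → ℝ} {O : Set (E n)}
  {y z : E n}

lemma nn_eq' (nu : Fin n → E n → ℝ) (K : Stmt.Field n) (z : E n) :
    ∑ i, nu i z * ∑ l, K z i l * nu l z = nn nu K z := by
  unfold nn col
  exact Finset.sum_congr rfl fun i _ => by ring

namespace Ln

variable (hL : Ln h nu W O)
include hL

lemma tr_eq' (hz : z ∈ O) (K : Stmt.Field n) :
    Stmt.tr h K z = trL nu K z + 1 / (1 + W z) * nn nu K z := by
  rw [hL.tr_eq hz K, nn_eq']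
  unfold trL
  ring

lemma sq (hz : z ∈ O) : √(1 + W z) * √(1 + W z) = 1 + W z := Real.mul_self_sqrt (hL.pos z hz).le

lemma sq0 (hz : z ∈ O) : 0 < √(1 + W z) := Real.sqrt_pos.2 (hL.pos z hz)

/-- the vector `π(ψ ν)` -/
lemma vec (hz : z ∈ O) (K : Stmt.Field n) (ψ : E n → ℝ) (i : Fin n) :
    ∑ m, Stmt.up h i m z * kb h (Stmt.momT h K) (fun l y => ψ y * nu l y) m z =
      1 / (1 + W z) * (ψ z * (col nu K i z - nn nu K z * nu i z -
        trL nu K z * nu i z)) := by
  have hp := (hL.pos z hz).ne'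
  have h1 : ∀ m, kb h (Stmt.momT h K) (fun l y => ψ y * nu l y) m z =
      ψ z * (1 / (1 + W z)) * (col nu K m z - Stmt.tr h K z * (1 + W z) * nu m z) := by
    intro m
    have g1 : ∑ j, Stmt.momT h K z m j * nu j z =
        col nu K m z - Stmt.tr h K z * (1 + W z) * nu m z := by
      simp only [hL.momT_eq hz]
      exact cP_right (hL.un z hz) m
    rw [← g1, Finset.mul_sum]
    unfold kb
    refine Finset.sum_congr rfl fun j _ => ?_
    have g2 : ∑ l, Stmt.up h j l z * (Stmt.momT h K z m j * (ψ z * nu l z)) =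
        Stmt.momT h K z m j * ψ z * ∑ l, Stmt.up h j l z * nu l z := by
      rw [Finset.mul_sum]
      exact Finset.sum_congr rfl fun l _ => by ring
    rw [g2, hL.up_a' hz]
    ring
  simp only [h1, hL.up_eq hz]
  have h2 := c1 (fun i => nu i z) (fun m => ψ z * (1 / (1 + W z)) *
    (col nu K m z - Stmt.tr h K z * (1 + W z) * nu m z)) (1 - 1 / (1 + W z)) i
  rw [h2]
  have h3 : ∑ m, nu m z * (ψ z * (1 / (1 + W z)) *
      (col nu K m z - Stmt.tr h K z * (1 + W z) * nu m z)) =
      ψ z * (1 / (1 + W z)) * (nn nu K z - Stmt.tr h K z * (1 + W z)) := by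
    have g1 : ∀ m, nu m z * (ψ z * (1 / (1 + W z)) *
        (col nu K m z - Stmt.tr h K z * (1 + W z) * nu m z)) =
        ψ z * (1 / (1 + W z)) * (col nu K m z * nu m z) -
        ψ z * (1 / (1 + W z)) * (Stmt.tr h K z * (1 + W z)) *
          (nu m z * nu m z) := fun m => by ring
    simp only [g1, Finset.sum_sub_distrib, ← Finset.mul_sum, hL.un z hz]
    unfold nn
    ring
  rw [h3, hL.tr_eq' hz]
  field_simp
  ring

/-- the contraction with the new term of the covariant derivative -/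
lemma ext (hz : z ∈ O) (K : Stmt.Field n) (hKs : ∀ i j, K z i j = K z j i) :
    ∑ i, ∑ m, Stmt.up h i m z * ∑ j, ∑ l, Stmt.up h j l z *
      (Stmt.momT h K z m j * (ψ z * (nu i z * cur nu l z))) =
    1 / (1 + W z) * (ψ z * ∑ i, col nu K i z * cur nu i z) := by
  have hE : ∑ l, nu l z * cur nu l z = 0 := by
    rw [← hL.En hz]
    exact Finset.sum_congr rfl fun l _ => mul_comm _ _
  have g1 : ∀ i m, ∑ j, ∑ l, Stmt.up h j l z *
      (Stmt.momT h K z m j * (ψ z * (nu i z * cur nu l z))) =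
      ψ z * nu i z * ∑ j, Stmt.momT h K z m j * cur nu j z := by
    intro i m
    rw [Finset.mul_sum]
    refine Finset.sum_congr rfl fun j _ => ?_
    have e : ∑ l, Stmt.up h j l z * (Stmt.momT h K z m j * (ψ z * (nu i z * cur nu l z))) =
        Stmt.momT h K z m j * ψ z * nu i z * ∑ l, Stmt.up h j l z * cur nu l z := by
      rw [Finset.mul_sum]
      exact Finset.sum_congr rfl fun l _ => by ring
    rw [e]
    simp only [hL.up_eq hz]
    rw [c1 (fun i => nu i z) (fun l => cur nu l z) _ j, hE]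
    ring
  simp only [g1]
  have g2 : ∑ i, ∑ m, Stmt.up h i m z * (ψ z * nu i z * ∑ j, Stmt.momT h K z m j * cur nu j z) =
      ∑ m, (∑ i, nu i z * Stmt.up h i m z) * (ψ z * ∑ j, Stmt.momT h K z m j * cur nu j z) := by
    rw [Finset.sum_comm]
    refine Finset.sum_congr rfl fun m _ => ?_
    rw [Finset.sum_mul]
    exact Finset.sum_congr rfl fun i _ => by ring
  rw [g2]
  simp only [hL.up_a hz]
  have g3 : ∑ m, 1 / (1 + W z) * nu m z * (ψ z * ∑ j, Stmt.momT h K z m j * cur nu j z) =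
      1 / (1 + W z) * (ψ z * ∑ j, (∑ m, nu m z * Stmt.momT h K z m j) * cur nu j z) := by
    simp only [Finset.sum_mul, Finset.mul_sum]
    rw [Finset.sum_comm]
    exact Finset.sum_congr rfl fun j _ => Finset.sum_congr rfl fun m _ => by ring
  rw [g3]
  have g4 : ∀ j, ∑ m, nu m z * Stmt.momT h K z m j =
      col nu K j z - Stmt.tr h K z * (1 + W z) * nu j z := by
    intro j
    have e1 : ∀ m, nu m z * Stmt.momT h K z m j =
        cP (fun i => nu i z) (K z) (Stmt.tr h K z) (W z) j m * nu m z := by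
      intro m
      rw [hL.momT_eq hz]
      unfold cP
      rw [hKs m j]
      simp only [eq_comm (a := m)]
      ring
    simp only [e1]
    exact cP_right (hL.un z hz) j
  have g5 : ∀ j, (col nu K j z - Stmt.tr h K z * (1 + W z) * nu j z) * cur nu j z =
      col nu K j z * cur nu j z - Stmt.tr h K z * (1 + W z) * (nu j z * cur nu j z) :=
    fun j => by ring
  simp only [g4, g5, Finset.sum_sub_distrib, ← Finset.mul_sum, hE]
  ring

/-- **The divergence of `π(ψ ν)`.** -/
theorem div_V (hK : ∀ i j, CR 1 O fun y => K y i j) (hKs : ∀ y ∈ O, ∀ i j, K y i j = K y j i)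
    (hψ : CR 1 O ψ) (hz : z ∈ O) :
    ∑ i, Stmt.pd i (fun y => ψ y / √(1 + W y) * (col nu K i y - nn nu K y * nu i y -
      trL nu K y * nu i y)) z =
    ψ z * (∑ j, Stmt.mom h K j z * nu j z) / √(1 + W z) + 1 / √(1 + W z) *
      ((∑ i, Stmt.pd i ψ z * col nu K i z - (∑ i, Stmt.pd i ψ z * nu i z) *
        nn nu K z) + ψ z * (∑ i, ∑ l, K z i l * sff nu i l z) -
      1 / (1 + W z) * ψ z * (∑ i, Stmt.pd i W z * col nu K i z -
        (∑ i, Stmt.pd i W z * nu i z) * nn nu K z) -
      trL nu K z * (∑ i, Stmt.pd i ψ z * nu i z) -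
      (trL nu K z + 1 / (1 + W z) * nn nu K z) * ψ z * mcl nu z +
      1 / (1 + W z) * trL nu K z * ψ z * (∑ i, Stmt.pd i W z * nu i z) / 2 +
      ψ z * ∑ i, col nu K i z * cur nu i z) := by
  have hp := hL.pos z hz
  have hs0 := hL.sq0 hz
  have hsq := hL.sq hz
  set Y : Fin n → E n → ℝ := fun l y => ψ y * nu l y with hY
  have hYc : ∀ l, CR 1 O (Y l) := fun l => hψ.mul ((hL.sN l).le (by norm_num))
  have hπ := cr_momT hL.M hK
  have hX : ∀ i, CR 1 O fun y => ∑ m, Stmt.up h i m y * kb h (Stmt.momT h K) Y m y := fun i =>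
    CR.sum _ fun m => ((hL.M.cr_up i m).le (by norm_num)).mul
      (CR.sum _ fun j => CR.sum _ fun l => ((hL.M.cr_up j l).le (by norm_num)).mul
        ((hπ m j).mul (hYc l)))
  -- the left side
  have h1 : ∀ i, Stmt.pd i (fun y => ψ y / √(1 + W y) * (col nu K i y -
      nn nu K y * nu i y - trL nu K y * nu i y)) z = √(1 + W z) *
      (Stmt.pd i (fun y => ∑ m, Stmt.up h i m y * kb h (Stmt.momT h K) Y m y) z +
      (∑ m, Stmt.chr h m i m z) * ∑ m, Stmt.up h i m z * kb h (Stmt.momT h K) Y m z) := by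
    intro i
    have a1 : HP i (fun y => √(1 + W y) *
        ∑ m, Stmt.up h i m y * kb h (Stmt.momT h K) Y m y) _ z :=
      (hL.vol hz i).mul (CR.hp (hX i) hz i)
    have a2 : HP i (fun y => ψ y / √(1 + W y) * (col nu K i y -
      nn nu K y * nu i y - trL nu K y * nu i y)) _ z := a1.congr (by
        filter_upwards [hL.op.mem_nhds hz] with x hx
        rw [hL.vec hx K ψ i]
        have b1 := hL.sq hx
        have b2 := (hL.sq0 hx).ne'
        have b3 := (hL.pos x hx).ne'
        have b4 : √(1 + W x) * (1 / (1 + W x)) = 1 / √(1 + W x) := by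
          rw [mul_one_div, div_eq_div_iff b3 b2]
          linarith
        rw [← mul_assoc, b4]
        ring)
    rw [a2.pd]
    ring
  simp only [h1]
  rw [← Finset.mul_sum, div_gen hL.M hπ hYc hz]
  -- the momentum density
  have h2 : ∑ j, ∑ l, Stmt.up h j l z * ((∑ i, ∑ m, Stmt.up h i m z *
      cdK h (Stmt.momT h K) m i j z) * Y l z) =
      ψ z * (1 / (1 + W z)) * ∑ j, Stmt.mom h K j z * nu j z := by
    rw [Finset.mul_sum]
    refine Finset.sum_congr rfl fun j _ => ?_
    have g2 : ∑ l, Stmt.up h j l z * ((∑ i, ∑ m, Stmt.up h i m z *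
        cdK h (Stmt.momT h K) m i j z) * Y l z) =
        Stmt.mom h K j z * ψ z * ∑ l, Stmt.up h j l z * nu l z := by
      rw [Finset.mul_sum]
      refine Finset.sum_congr rfl fun l _ => ?_
      show Stmt.up h j l z * (Stmt.mom h K j z * (ψ z * nu l z)) = _
      ring
    rw [g2, hL.up_a' hz]
    ring
  rw [h2]
  -- the contraction with the covariant derivative
  have hc : ∀ i l, Stmt.pd i (Y l) z - ∑ d, Stmt.chr h d i l z * Y d z =
      cA (fun i => nu i z) (fun i => Stmt.pd i ψ z) (fun i => Stmt.pd i W z)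
      (fun i j => sff nu i j z) (ψ z) (1 / (1 + W z)) i l + ψ z * (nu i z * cur nu l z) :=
    fun i l => hL.cov hψ hz i l
  have h3 := key (a := fun i => nu i z) (p := fun i => Stmt.pd i ψ z)
    (w := fun i => Stmt.pd i W z) (b := fun i j => sff nu i j z) (K := K z)
    (ψ := ψ z) (ρ := 1 / (1 + W z)) (t := Stmt.tr h K z) (W := W z) (hL.un z hz)
    (fun i => hL.Az hz i) (fun i l => hL.fr z hz i l) (hKs z hz)
    (by field_simp) (hL.tr_eq hz K)
  have h3' := hL.ext (ψ := ψ) hz K (hKs z hz)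
  have hsplit : ∑ i, ∑ m, Stmt.up h i m z * ∑ j, ∑ l, Stmt.up h j l z *
      (Stmt.momT h K z m j * (Stmt.pd i (Y l) z - ∑ d, Stmt.chr h d i l z * Y d z)) =
      ∑ i, ∑ m, Stmt.up h i m z * ∑ j, ∑ l, Stmt.up h j l z * (Stmt.momT h K z m j *
        cA (fun i => nu i z) (fun i => Stmt.pd i ψ z) (fun i => Stmt.pd i W z)
        (fun i j => sff nu i j z) (ψ z) (1 / (1 + W z)) i l) +
      ∑ i, ∑ m, Stmt.up h i m z * ∑ j, ∑ l, Stmt.up h j l z *
        (Stmt.momT h K z m j * (ψ z * (nu i z * cur nu l z))) := by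
    simp only [hc, mul_add, Finset.sum_add_distrib]
  rw [hsplit, h3']
  simp only [hL.momT_eq hz, hL.up_eq hz]
  rw [h3]
  have h4 : ∀ i, ∑ l, K z i l * nu l z = col nu K i z := fun i => rfl
  have h5 : ∑ i, K z i i - nn nu K z = trL nu K z := rfl
  have h6 : ∑ i, sff nu i i z = mcl nu z := by
    unfold sff mcl
    rw [Finset.sum_sub_distrib]
    have : ∑ i, nu i z * cur nu i z = 0 := by
      rw [← hL.En hz]
      exact Finset.sum_congr rfl fun l _ => mul_comm _ _
    rw [this, sub_zero]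
  rw [nn_eq', h5, h6, hL.tr_eq' hz]
  simp only [h4]
  generalize (∑ i, Stmt.pd i ψ z * col nu K i z) = pc
  generalize (∑ i, Stmt.pd i ψ z * nu i z) = pa
  generalize (∑ i, Stmt.pd i W z * col nu K i z) = wc
  generalize (∑ i, Stmt.pd i W z * nu i z) = wa
  generalize (∑ i, ∑ l, K z i l * sff nu i l z) = s1
  generalize (∑ j, Stmt.mom h K j z * nu j z) = J
  generalize (∑ i, col nu K i z * cur nu i z) = ce
  have e : √(1 + W z) * (1 / (1 + W z)) = 1 / √(1 + W z) := by
    rw [mul_one_div, div_eq_div_iff hp.ne' hs0.ne']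
    linarith
  linear_combination (ψ z * J + ((pc - pa * nn nu K z) + ψ z * s1 - 1 / (1 + W z) * ψ z *
    (wc - wa * nn nu K z) - trL nu K z * pa -
    (trL nu K z + 1 / (1 + W z) * nn nu K z) * ψ z * mcl nu z +
    1 / (1 + W z) * trL nu K z * ψ z * wa / 2 + ψ z * ce)) * e

end Ln

end Vale.Agent.P366.CF
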