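import Vale.Agent.P366.H353.CL.Dv
import Vale.Agent.P366.CF.Defs

/-! Local calculus for the metric `δ + W ν ⊗ ν`. -/

open MeasureTheory Metric Filter Topology Set
open scoped ContDiff

noncomputable section
namespace Vale.Agent.P366.CF
open Vale.Agent.P366.Stmt Vale.Agent.P366.T2 Vale.Agent.P366.GC
open Vale.Agent.P366.H896 (CR pd_comm pd_congrU)
open Vale.Agent.P366.SH (kb div_cov cov_contr dot2 cr_tr cr_momT)
open Vale.Agent.P366.CL (cA cP c1 c2 key cP_right div_gen)

variable {n : ℕ} {h K : Stmt.Field n} {nu : Fin n → E n → ℝ} {W ψ : E n → ℝ} {O : Set (E n)}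
  {y z : E n}

/-- The metric `h = δ + W ν ⊗ ν` on the open set `O`. -/
structure Ln (h : Stmt.Field n) (nu : Fin n → E n → ℝ) (W : E n → ℝ) (O : Set (E n)) : Prop where
  M : Met h O
  sN : ∀ i, CR 5 O (nu i)
  sW : CR 5 O W
  un : ∀ z ∈ O, ∑ i, nu i z * nu i z = 1
  fr : ∀ z ∈ O, ∀ i j, sff nu i j z = sff nu j i z
  pos : ∀ z ∈ O, 0 < 1 + W z
  met : ∀ z ∈ O, ∀ i j, h z i j = (if i = j then 1 else 0) + W z * nu i z * nu j z

namespace Ln

variable (hL : Ln h nu W O)
include hL

lemma op : IsOpen O := hL.M.op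

lemma sN1 (i j : Fin n) : CR 4 O (Stmt.pd i (nu j)) := CR.pd hL.op (hL.sN j) i

lemma sW1 (i : Fin n) : CR 4 O (Stmt.pd i W) := CR.pd hL.op hL.sW i

lemma hN (hz : z ∈ O) (i j : Fin n) : HP i (nu j) (Stmt.pd i (nu j) z) z :=
  CR.hp ((hL.sN j).le (by norm_num : 0 + 1 ≤ 5)) hz i

lemma hN1 (hz : z ∈ O) (i j k : Fin n) :
    HP i (Stmt.pd j (nu k)) (Stmt.pd i (Stmt.pd j (nu k)) z) z :=
  CR.hp ((hL.sN1 j k).le (by norm_num : 0 + 1 ≤ 4)) hz i

lemma hW (hz : z ∈ O) (i : Fin n) : HP i W (Stmt.pd i W z) z :=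
  CR.hp (hL.sW.le (by norm_num : 0 + 1 ≤ 5)) hz i

lemma Bz (hz : z ∈ O) (i : Fin n) : ∑ l, Stmt.pd i (nu l) z * nu l z = 0 := by
  have h1 : HP i (fun y => ∑ l, nu l y * nu l y)
      (∑ l, (Stmt.pd i (nu l) z * nu l z + nu l z * Stmt.pd i (nu l) z)) z :=
    HP.sum _ fun l _ => (hL.hN hz i l).mul (hL.hN hz i l)
  have h2 : HP i (fun y => ∑ l, nu l y * nu l y) 0 z :=
    (HP.const i 1 z).congr (by
      filter_upwards [hL.op.mem_nhds hz] with x hx
      exact hL.un x hx)
  have h3 := h1.pd.symm.trans h2.pd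
  have e : ∑ l, (Stmt.pd i (nu l) z * nu l z + nu l z * Stmt.pd i (nu l) z) =
      2 * ∑ l, Stmt.pd i (nu l) z * nu l z := by
    rw [Finset.mul_sum]
    exact Finset.sum_congr rfl fun l _ => by ring
  rw [e] at h3
  linarith

lemma En (hz : z ∈ O) : ∑ l, cur nu l z * nu l z = 0 := by
  unfold cur
  simp only [Finset.sum_mul]
  rw [Finset.sum_comm]
  refine Finset.sum_eq_zero fun i _ => ?_
  have h1 : ∀ l, nu i z * Stmt.pd i (nu l) z * nu l z =
      nu i z * (Stmt.pd i (nu l) z * nu l z) := fun l => by ring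
  simp only [h1, ← Finset.mul_sum, hL.Bz hz, mul_zero]

lemma Az (hz : z ∈ O) (i : Fin n) : ∑ l, sff nu i l z * nu l z = 0 := by
  have h1 : ∀ l, sff nu i l z * nu l z = Stmt.pd i (nu l) z * nu l z -
      nu i z * (cur nu l z * nu l z) := fun l => by unfold sff; ring
  simp only [h1, Finset.sum_sub_distrib, ← Finset.mul_sum, hL.Bz hz, hL.En hz]
  ring

omit hL in
lemma B_eq (i j : Fin n) : Stmt.pd i (nu j) z = sff nu i j z + nu i z * cur nu j z := by
  unfold sff; ring

/-- the inverse metric -/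
lemma up_eq (hz : z ∈ O) (i j : Fin n) : Stmt.up h i j z =
    (if i = j then 1 else 0) - (1 - 1 / (1 + W z)) * nu i z * nu j z := by
  have hp := hL.pos z hz
  set a : Fin n → ℝ := fun i => nu i z with ha
  have hm : Stmt.mat h z * (Matrix.of fun i j => (if i = j then 1 else 0) -
      (1 - 1 / (1 + W z)) * a i * a j) = 1 := by
    ext i j
    rw [Matrix.mul_apply, Matrix.one_apply]
    have e1 : ∀ k, Stmt.mat h z i k * (Matrix.of fun i j => (if i = j then 1 else 0) -
        (1 - 1 / (1 + W z)) * a i * a j) k j =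
        (if k = j then (if i = k then 1 else 0) + W z * a i * a k else 0) -
        (1 - 1 / (1 + W z)) * a j * (if i = k then a k else 0) -
        (1 - 1 / (1 + W z)) * W z * a i * a j * (a k * a k) := by
      intro k
      rw [Matrix.of_apply]
      show h z i k * _ = _
      rw [hL.met z hz i k]
      simp only [ha]
      split_ifs <;> ring
    simp only [e1, Finset.sum_sub_distrib, ← Finset.mul_sum]
    have hu : ∑ k, a k * a k = 1 := hL.un z hz
    rw [hu]
    simp only [Finset.sum_ite_eq', Finset.sum_ite_eq, Finset.mem_univ, if_true]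
    field_simp
    ring
  have h2 : (Stmt.mat h z)⁻¹ = Matrix.of fun i j => (if i = j then 1 else 0) -
      (1 - 1 / (1 + W z)) * a i * a j := Matrix.inv_eq_right_inv hm
  unfold Stmt.up
  rw [h2, Matrix.of_apply]

lemma pdh (hz : z ∈ O) (k i j : Fin n) : Stmt.pd k (fun y => h y i j) z =
    Stmt.pd k W z * nu i z * nu j z +
      W z * (Stmt.pd k (nu i) z * nu j z + nu i z * Stmt.pd k (nu j) z) := by
  have h1 : HP k (fun y => (if i = j then 1 else 0) + W y * (nu i y * nu j y))
      (0 + (Stmt.pd k W z * (nu i z * nu j z) +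
        W z * (Stmt.pd k (nu i) z * nu j z + nu i z * Stmt.pd k (nu j) z))) z :=
    (HP.const k _ z).add ((hL.hW hz k).mul ((hL.hN hz k i).mul (hL.hN hz k j)))
  have h2 : HP k (fun y => h y i j) _ z := h1.congr (by
    filter_upwards [hL.op.mem_nhds hz] with x hx
    rw [hL.met x hx i j]
    ring)
  rw [h2.pd]
  ring

lemma up_a (hz : z ∈ O) (l : Fin n) :
    ∑ d, nu d z * Stmt.up h d l z = 1 / (1 + W z) * nu l z := by
  simp only [hL.up_eq hz]
  have e1 : ∀ d, nu d z * ((if d = l then 1 else 0) -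
      (1 - 1 / (1 + W z)) * nu d z * nu l z) =
      (if d = l then nu d z else 0) -
        (1 - 1 / (1 + W z)) * nu l z * (nu d z * nu d z) := by
    intro d; split_ifs <;> ring
  simp only [e1, Finset.sum_sub_distrib, ← Finset.mul_sum, hL.un z hz]
  simp
  ring

lemma up_a' (hz : z ∈ O) (l : Fin n) :
    ∑ d, Stmt.up h l d z * nu d z = 1 / (1 + W z) * nu l z := by
  rw [← hL.up_a hz l]
  exact Finset.sum_congr rfl fun d _ => by rw [hL.M.up_symm hz l d]; ring

lemma chrL (hz : z ∈ O) (i j : Fin n) :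
    ∑ d, Stmt.chr h d i j z * nu d z = 1 / (1 + W z) / 2 *
      (Stmt.pd i W z * nu j z + Stmt.pd j W z * nu i z +
        2 * W z * sff nu i j z -
        (∑ l, Stmt.pd l W z * nu l z) * (nu i z * nu j z)) := by
  have e1 : ∑ d, Stmt.chr h d i j z * nu d z =
      ∑ l, (∑ d, nu d z * Stmt.up h d l z) * ((Stmt.pd i (fun y => h y j l) z +
        Stmt.pd j (fun y => h y i l) z - Stmt.pd l (fun y => h y i j) z) / 2) := by
    unfold Stmt.chr
    simp only [Finset.sum_mul, Finset.sum_div]
    rw [Finset.sum_comm]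
    exact Finset.sum_congr rfl fun l _ => Finset.sum_congr rfl fun d _ => by ring
  rw [e1]
  simp only [hL.up_a hz, hL.pdh hz]
  have hs : sff nu i j z = sff nu j i z := hL.fr z hz i j
  have hBi : Stmt.pd i (nu j) z = sff nu i j z + nu i z * cur nu j z := B_eq i j
  have hBj : Stmt.pd j (nu i) z = sff nu j i z + nu j z * cur nu i z := B_eq j i
  set a : Fin n → ℝ := fun i => nu i z with ha
  set w : Fin n → ℝ := fun i => Stmt.pd i W z with hw
  set b : Fin n → Fin n → ℝ := fun i j => Stmt.pd i (nu j) z with hb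
  have e2 : ∀ l, 1 / (1 + W z) * a l * ((w i * a j * a l + W z * (b i j * a l + a j * b i l) +
      (w j * a i * a l + W z * (b j i * a l + a i * b j l)) -
      (w l * a i * a j + W z * (b l i * a j + a i * b l j))) / 2) =
      1 / (1 + W z) / 2 * ((w i * a j + w j * a i + W z * b i j + W z * b j i) * (a l * a l) +
        W z * a j * (b i l * a l) + W z * a i * (b j l * a l) -
        a i * a j * (w l * a l) - W z * a j * (a l * b l i) - W z * a i * (a l * b l j)) :=
    fun l => by ring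
  have h1 : ∑ l, a l * a l = 1 := hL.un z hz
  have h2 : ∀ i, ∑ l, b i l * a l = 0 := fun i => hL.Bz hz i
  have h3 : ∀ i, ∑ l, a l * b l i = cur nu i z := fun i => rfl
  have e3 : ∑ l, 1 / (1 + W z) * a l * ((w i * a j * a l + W z * (b i j * a l + a j * b i l) +
      (w j * a i * a l + W z * (b j i * a l + a i * b j l)) -
      (w l * a i * a j + W z * (b l i * a j + a i * b l j))) / 2) =
      1 / (1 + W z) / 2 * (w i * a j + w j * a i + W z * b i j + W z * b j i -
        (∑ l, w l * a l) * (a i * a j) - W z * a j * cur nu i z - W z * a i * cur nu j z) := by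
    simp only [e2]
    rw [← Finset.mul_sum]
    simp only [Finset.sum_add_distrib, Finset.sum_sub_distrib, ← Finset.mul_sum, h1, h2, h3]
    ring
  have e4 : b i j = sff nu i j z + a i * cur nu j z := hBi
  have e5 : b j i = sff nu i j z + a j * cur nu i z := by rw [hs]; exact hBj
  refine e3.trans ?_
  rw [e4, e5]
  ring

/-- the trace of the Christoffel symbols -/
lemma chr_tr (hz : z ∈ O) (i : Fin n) :
    ∑ m, Stmt.chr h m i m z = Stmt.pd i W z / (2 * (1 + W z)) := by
  have hp := (hL.pos z hz).ne'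
  have h1 : ∑ m, Stmt.chr h m i m z =
      (∑ m, ∑ l, Stmt.up h m l z * Stmt.pd i (fun y => h y m l) z) / 2 := by
    unfold Stmt.chr
    rw [← Finset.sum_div]
    congr 1
    have e1 : ∀ m l, Stmt.up h m l z * (Stmt.pd i (fun y => h y m l) z +
        Stmt.pd m (fun y => h y i l) z - Stmt.pd l (fun y => h y i m) z) =
        Stmt.up h m l z * Stmt.pd i (fun y => h y m l) z +
        (Stmt.up h m l z * Stmt.pd m (fun y => h y i l) z -
          Stmt.up h m l z * Stmt.pd l (fun y => h y i m) z) := fun m l => by ring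
    simp only [e1, Finset.sum_add_distrib, Finset.sum_sub_distrib]
    have e2 : ∑ m, ∑ l, Stmt.up h m l z * Stmt.pd l (fun y => h y i m) z =
        ∑ m, ∑ l, Stmt.up h m l z * Stmt.pd m (fun y => h y i l) z := by
      rw [Finset.sum_comm]
      exact Finset.sum_congr rfl fun m _ => Finset.sum_congr rfl fun l _ => by
        rw [hL.M.up_symm hz l m]
    rw [e2]
    ring
  rw [h1]
  have e3 : ∀ m, ∑ l, Stmt.up h m l z * Stmt.pd i (fun y => h y m l) z =
      Stmt.pd i (fun y => h y m m) z - (1 - 1 / (1 + W z)) *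
        (Stmt.pd i W z * (nu m z * nu m z) + W z * (Stmt.pd i (nu m) z * nu m z)) := by
    intro m
    have e4 : ∀ l, Stmt.up h m l z * Stmt.pd i (fun y => h y m l) z =
        (if m = l then Stmt.pd i (fun y => h y m l) z else 0) - (1 - 1 / (1 + W z)) *
          ((Stmt.pd i W z * (nu m z * nu m z) + W z * (Stmt.pd i (nu m) z * nu m z)) *
            (nu l z * nu l z) +
          W z * (nu m z * nu m z) * (Stmt.pd i (nu l) z * nu l z)) := by
      intro l
      rw [hL.up_eq hz, sub_mul]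
      congr 1
      · split_ifs <;> ring
      · rw [hL.pdh hz]
        ring
    simp only [e4, Finset.sum_sub_distrib, Finset.sum_ite_eq, Finset.mem_univ, if_true,
      ← Finset.mul_sum, Finset.sum_add_distrib, hL.un z hz, hL.Bz hz]
    ring
  have e5 : ∀ m, Stmt.pd i (fun y => h y m m) z = Stmt.pd i W z * (nu m z * nu m z) +
      2 * W z * (Stmt.pd i (nu m) z * nu m z) := fun m => by rw [hL.pdh hz]; ring
  simp only [e3, e5, Finset.sum_sub_distrib, ← Finset.mul_sum, Finset.sum_add_distrib,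
    hL.un z hz, hL.Bz hz]
  field_simp
  ring

lemma vol (hz : z ∈ O) (i : Fin n) : HP i (fun y => √(1 + W y))
    (√(1 + W z) * ∑ m, Stmt.chr h m i m z) z := by
  have hp := hL.pos z hz
  rw [hL.chr_tr hz i]
  have h2 : T2.HP i (fun y => 1 + W y) (0 + Stmt.pd i W z) z :=
    (T2.HP.const i 1 z).add (hL.hW hz i)
  have h3 : HasDerivAt (fun t : ℝ => 1 + W (z + t • EuclideanSpace.single i (1 : ℝ)))
    (0 + Stmt.pd i W z) 0 := h2
  have h4 : T2.HP i (fun y => √(1 + W y)) ((0 + Stmt.pd i W z) /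
      (2 * √(1 + W (z + (0 : ℝ) • EuclideanSpace.single i (1 : ℝ))))) z :=
    h3.sqrt (by simpa using hp.ne')
  have hss := Real.mul_self_sqrt hp.le
  convert h4 using 1
  rw [zero_smul, add_zero, zero_add, mul_div_assoc', div_eq_div_iff (by positivity)
    (by positivity)]
  linear_combination (2 * Stmt.pd i W z) * hss

/-- the covariant derivative of `ψ ν` -/
lemma cov (hψ : CR 1 O ψ) (hz : z ∈ O) (i l : Fin n) :
    Stmt.pd i (fun y => ψ y * nu l y) z -
      ∑ d, Stmt.chr h d i l z * (ψ z * nu d z) =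
    cA (fun i => nu i z) (fun i => Stmt.pd i ψ z) (fun i => Stmt.pd i W z)
      (fun i j => sff nu i j z) (ψ z) (1 / (1 + W z)) i l + ψ z * (nu i z * cur nu l z) := by
  have h1 : HP i (fun y => ψ y * nu l y)
      (Stmt.pd i ψ z * nu l z + ψ z * Stmt.pd i (nu l) z) z :=
    (CR.hp hψ hz i).mul (hL.hN hz i l)
  have h2 : ∑ d, Stmt.chr h d i l z * (ψ z * nu d z) =
      ψ z * ∑ d, Stmt.chr h d i l z * nu d z := by
    rw [Finset.mul_sum]
    exact Finset.sum_congr rfl fun d _ => by ring
  rw [h1.pd, h2, hL.chrL hz, B_eq i l]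
  have hp := (hL.pos z hz).ne'
  unfold cA
  field_simp
  ring

/-- the trace -/
lemma tr_eq (hz : z ∈ O) (K : Stmt.Field n) : Stmt.tr h K z = ∑ i, K z i i -
    (1 - 1 / (1 + W z)) * ∑ i, nu i z * ∑ l, K z i l * nu l z := by
  unfold Stmt.tr
  simp only [hL.up_eq hz]
  have e1 : ∀ i j, ((if i = j then 1 else 0) -
      (1 - 1 / (1 + W z)) * nu i z * nu j z) * K z i j =
      (if i = j then K z i j else 0) -
        (1 - 1 / (1 + W z)) * (nu i z * (K z i j * nu j z)) := by
    intro i j; split_ifs <;> ring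
  simp only [e1, Finset.sum_sub_distrib, ← Finset.mul_sum]
  simp

/-- the momentum tensor -/
lemma momT_eq (hz : z ∈ O) (K : Stmt.Field n) (i j : Fin n) : Stmt.momT h K z i j =
    cP (fun i => nu i z) (K z) (Stmt.tr h K z) (W z) i j := by
  unfold Stmt.momT cP
  rw [hL.met z hz i j]

end Ln

end Vale.Agent.P366.CF
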